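import Mathlib
import Vale.Agent.Lib.P330.Half

/-! # P330: a limit for the constants in the PCP-for-PPAD conjecture -/

namespace Vale.Agent.Results.P330.HalfSatisfied

open Vale.Agent.P330

/-- For every generalized circuit there is an assignment with values in `[0, 1]`, each of them
`0`, `1`, `1/2`, `α` or `1 - α` for the parameter `α` of a constant gate, which `ε`-satisfies at
least half of the gates, for all `ε` with `0 ≤ ε < 1` at once. -/
theorem result (V : Type) [Fintype V] (c : Circuit V) :
    ∃ x : V → ℝ, (∀ z, 0 ≤ x z ∧ x z ≤ 1) ∧ (∀ z, Simple c (x z)) ∧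
      ∀ ε : ℝ, 0 ≤ ε → ε < 1 → (outputs c).card ≤ 2 * (satisfied c ε x).card := by
  obtain ⟨x, hx, h1, h2⟩ := half c
  refine ⟨x, h1, ?_, h2⟩
  rcases hx with rfl | rfl
  · exact fun _ => Or.inl rfl
  · exact simple_chain c

end Vale.Agent.Results.P330.HalfSatisfied
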